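import Vale.Agent.Lib.P193.L.Final
import Vale.Agent.Lib.P193.Two.Final
import Vale.Agent.Lib.P193.One.Tables

/-!
# P193: assembly of the three parts (everything except the input of part I)
-/

open scoped TensorProduct

namespace P193.Asm

universe u

/-- The value of a word in the letters `x i` and their inverses: `(i, true)` stands for `x i`,
`(i, false)` for its inverse. -/
def ev {n : ℕ} {G : Type u} [Group G] (x : Fin n → G) (w : List (Fin n × Bool)) : G :=
  (w.map fun a => if a.2 then x a.1 else (x a.1)⁻¹).prod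

/-- the letters -/
def eqv (n : ℕ) : Fin n × Bool ≃ Fin (n * 2) :=
  (Equiv.prodCongr (Equiv.refl (Fin n)) finTwoEquiv.symm).trans finProdFinEquiv

/-- all the letters and their inverses -/
def lets {n : ℕ} {G : Type u} [Group G] (x : Fin n → G) (k : Fin (n * 2)) : G :=
  if ((eqv n).symm k).2 then x ((eqv n).symm k).1 else (x ((eqv n).symm k).1)⁻¹

theorem lets_eqv {n : ℕ} {G : Type u} [Group G] (x : Fin n → G) (a : Fin n × Bool) :
    lets x (eqv n a) = if a.2 then x a.1 else (x a.1)⁻¹ := by
  unfold lets
  rw [Equiv.symm_apply_apply]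

theorem prod_lets {n : ℕ} {G : Type u} [Group G] (x : Fin n → G) (w : List (Fin (n * 2))) :
    (w.map (lets x)).prod = ev x (w.map (eqv n).symm) := by
  unfold ev
  rw [List.map_map]
  rfl

theorem lets_gen {n : ℕ} {G : Type u} [Group G] (x : Fin n → G)
    (hx : Subgroup.closure (Set.range x) = ⊤) (g : G) :
    ∃ w : List (Fin (n * 2)), (w.map (lets x)).prod = g := by
  have hg : g ∈ Submonoid.closure (Set.range x ∪ (Set.range x)⁻¹) := by
    rw [← Subgroup.closure_toSubmonoid, hx]
    exact Subgroup.mem_top g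
  obtain ⟨l, hl, rfl⟩ := Submonoid.exists_list_of_mem_closure hg
  clear hg
  induction l with
  | nil => exact ⟨[], rfl⟩
  | cons a l ih =>
    obtain ⟨w, hw⟩ := ih fun b hb => hl b (List.mem_cons_of_mem _ hb)
    have ha : ∃ k, lets x k = a := by
      rcases hl a List.mem_cons_self with ⟨i, hi⟩ | ⟨i, hi⟩
      · exact ⟨eqv n (i, true), by rw [lets_eqv]; simpa using hi⟩
      · exact ⟨eqv n (i, false), by rw [lets_eqv]; simp [hi]⟩
    obtain ⟨k, hk⟩ := ha
    exact ⟨k :: w, by rw [List.map_cons, List.prod_cons, List.prod_cons, hk, hw]⟩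

theorem lets_wp {n : ℕ} {G : Type u} [Group G] (x : Fin n → G)
    (hwp : ComputablePred fun w : List (Fin n × Bool) => ev x w = 1) :
    ComputablePred fun w : List (Fin (n * 2)) => (w.map (lets x)).prod = 1 := by
  obtain ⟨hd, h⟩ := hwp
  have h1 : Primrec fun w : List (Fin (n * 2)) => w.map (eqv n).symm :=
    Primrec.list_map Primrec.id ((Primrec.dom_finite _).comp Primrec.snd)
  have h2 := h.comp h1.to_comp
  refine ⟨fun w => decidable_of_iff (ev x (w.map (eqv n).symm) = 1)
    (by simp only [prod_lets]), ?_⟩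
  refine h2.of_eq fun w => ?_
  rw [Bool.eq_iff_iff]
  simp only [decide_eq_true_iff, prod_lets]

/-- a copy of a finitely generated group in `Type` -/
theorem exists_copy {n : ℕ} {G : Type u} [Group G] (x : Fin n → G)
    (hx : Subgroup.closure (Set.range x) = ⊤) :
    ∃ (G₀ : Type) (_ : Group G₀) (e : G ≃* G₀),
      Subgroup.closure (Set.range fun i => e (x i)) = ⊤ := by
  have hs : Function.Surjective (FreeGroup.lift x) := by
    rw [← MonoidHom.range_eq_top, FreeGroup.range_lift_eq_closure, hx]
  let e : G ≃* (FreeGroup (Fin n) ⧸ (FreeGroup.lift x).ker) :=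
    (QuotientGroup.quotientKerEquivOfSurjective (FreeGroup.lift x) hs).symm
  refine ⟨_, inferInstance, e, ?_⟩
  have h1 : (Set.range fun i => e (x i)) = e.toMonoidHom '' Set.range x := by
    rw [← Set.range_comp]
    rfl
  rw [h1, ← MonoidHom.map_closure, hx]
  exact (MonoidHom.range_eq_map _).symm.trans (MonoidHom.range_eq_top.2 e.surjective)

theorem map_ev {n : ℕ} {G : Type u} {G₀ : Type} [Group G] [Group G₀] (e : G ≃* G₀)
    (x : Fin n → G) (w : List (Fin n × Bool)) : e (ev x w) = ev (fun i => e (x i)) w := by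
  unfold ev
  rw [map_list_prod, List.map_map]
  congr 1
  refine List.map_congr_left fun a _ => ?_
  simp only [Function.comp_apply]
  split_ifs <;> simp

/-- from an algebra with the hypotheses of part L -/
theorem of_chyp {G : Type u} [Group G] {A : Type} [Ring A] [Algebra (ZMod 2) A]
    (h : L.CHyp A) (f : G →* Aˣ) (hf : Function.Injective f) :
    ∃ (H : Type) (_ : Group H), Group.IsFinitelyPresented H ∧ IsSimpleGroup H ∧
      ∃ f : G →* H, Function.Injective f := by
  obtain ⟨g, hg⟩ := L.exists_units_embedding A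
  obtain ⟨h1, h2⟩ := partII (L.rHyp_tensor A h)
  exact ⟨_, inferInstance, h1, h2, g.comp f, hg.comp hf⟩

end P193.Asm
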