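import Mathlib

/-!
# P193 (Boone-Higman), part II: definitions.

See `PART_II.md`. An isometry of a ring is a PAIR `(t, t*)` with `t* t = 1`; the star is only notation.
-/

namespace P193

universe u v w

open scoped commutatorElement

/-- An isometry of a ring: a pair `(t, t*)` with `t* t = 1`. -/
@[ext] structure Isom (R : Type u) [Ring R] where
  val : R
  st : R
  st_val : st * val = 1

namespace Isom

variable {R : Type u} [Ring R]

attribute [simp] Isom.st_val

@[simp] lemma st_val_mul (t : Isom R) (r : R) : t.st * (t.val * r) = r := by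
  rw [← mul_assoc, t.st_val, one_mul]

/-- product of isometries: `(t q, q* t*)` -/
instance : Monoid (Isom R) where
  mul t q := ⟨t.val * q.val, q.st * t.st, by rw [mul_assoc, st_val_mul, q.st_val]⟩
  one := ⟨1, 1, one_mul 1⟩
  mul_assoc a b c := Isom.ext (mul_assoc _ _ _) (mul_assoc _ _ _).symm
  one_mul a := Isom.ext (one_mul _) (mul_one _)
  mul_one a := Isom.ext (mul_one _) (one_mul _)

@[simp] lemma mul_val (t q : Isom R) : (t * q).val = t.val * q.val := rfl
@[simp] lemma mul_st (t q : Isom R) : (t * q).st = q.st * t.st := rfl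
@[simp] lemma one_val : (1 : Isom R).val = 1 := rfl
@[simp] lemma one_st : (1 : Isom R).st = 1 := rfl

/-- units act on isometries: `g • (t, t*) = (g t, t* g⁻¹)` -/
instance : MulAction Rˣ (Isom R) where
  smul g t := ⟨g * t.val, t.st * ↑g⁻¹, by
    rw [mul_assoc, ← mul_assoc (↑g⁻¹ : R), Units.inv_mul, one_mul, t.st_val]⟩
  one_smul t := Isom.ext (by
    show ((1 : Rˣ) : R) * t.val = t.val
    simp) (by
    show t.st * ((1 : Rˣ)⁻¹ : Rˣ) = t.st
    simp)
  mul_smul g h t := Isom.ext (by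
    show ((g * h : Rˣ) : R) * t.val = g * (h * t.val)
    simp [mul_assoc]) (by
    show t.st * (((g * h)⁻¹ : Rˣ) : R) = t.st * ↑h⁻¹ * ↑g⁻¹
    simp [mul_assoc])

@[simp] lemma smul_val (g : Rˣ) (t : Isom R) : (g • t).val = g * t.val := rfl
@[simp] lemma smul_st (g : Rˣ) (t : Isom R) : (g • t).st = t.st * ↑g⁻¹ := rfl

lemma smul_mul (g : Rˣ) (t q : Isom R) : g • (t * q) = (g • t) * q :=
  Isom.ext (mul_assoc _ _ _).symm (mul_assoc _ _ _)

end Isom

section
variable {R : Type u} [Ring R]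

/-- orthogonal isometries -/
def Orth (t z : Isom R) : Prop := t.st * z.val = 0 ∧ z.st * t.val = 0

lemma Orth.symm {t z : Isom R} (h : Orth t z) : Orth z t := ⟨h.2, h.1⟩

lemma Orth.mul_right {t z : Isom R} (h : Orth t z) (a : Isom R) : Orth t (z * a) :=
  ⟨by rw [Isom.mul_val, ← mul_assoc, h.1, zero_mul], by rw [Isom.mul_st, mul_assoc, h.2, mul_zero]⟩

lemma Orth.mul_left {t z : Isom R} (h : Orth t z) (a : Isom R) : Orth (t * a) z :=
  (h.symm.mul_right a).symm

lemma Orth.smul {t z : Isom R} (h : Orth t z) (g : Rˣ) : Orth (g • t) (g • z) := by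
  constructor
  · rw [Isom.smul_st, Isom.smul_val, mul_assoc, ← mul_assoc (↑g⁻¹ : R), Units.inv_mul, one_mul,
      h.1]
  · rw [Isom.smul_st, Isom.smul_val, mul_assoc, ← mul_assoc (↑g⁻¹ : R), Units.inv_mul, one_mul,
      h.2]

/-- `t` and `z` are adjacent: orthogonal, and the pair has room -/
def Adj (t z : Isom R) : Prop := Orth t z ∧ ∃ y, Orth t y ∧ Orth z y

/-- `t`, `z`, `w` form a triangle: pairwise orthogonal, and the triple has room -/
def Tri (t z w : Isom R) : Prop :=
  Orth t z ∧ Orth t w ∧ Orth z w ∧ ∃ y, Orth t y ∧ Orth z y ∧ Orth w y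

/-- pairwise orthogonal family -/
def POrth {ι : Type v} (τ : ι → Isom R) : Prop := ∀ i j, i ≠ j → Orth (τ i) (τ j)

/-- Leavitt family -/
def IsLF {ι : Type v} [Fintype ι] (τ : ι → Isom R) : Prop :=
  POrth τ ∧ ∑ i, (τ i).val * (τ i).st = 1

/-- Leavitt pair (`ω` is a complement of `q`) -/
def LPair (q ω : Isom R) : Prop := Orth q ω ∧ q.val * q.st + ω.val * ω.st = 1

/-- the subgroup of the units generated by the elementary units `1 + τ_i r τ_j*` -/
def El {ι : Type v} (τ : ι → Isom R) : Subgroup Rˣ :=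
  Subgroup.closure {g | ∃ i j, i ≠ j ∧ ∃ r : R, (g : R) = 1 + (τ i).val * r * (τ j).st}

end

section Hyp

/-- (A1) there is a Leavitt pair -/
def HLeavitt (R : Type u) [Ring R] : Prop := ∃ s0 s1 : Isom R, LPair s0 s1

/-- (A3) infinite repetition: `φ(r) = u0 r u0* + u1 φ(r) u1*` -/
def HRep (R : Type u) [Ring R] : Prop :=
  ∃ (φ : R →ₙ+* R) (u0 u1 : Isom R), Orth u0 u1 ∧
    ∀ r, φ r = u0.val * r * u0.st + u1.val * φ r * u1.st

/-- (P) -/
def HPure (R : Type u) [Ring R] : Prop := ∀ z : R, z ≠ 0 → ∃ x y : R, x * z * y = 1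

/-- (SCAL) -/
def HScal (R : Type u) [Ring R] : Prop :=
  ∀ F : Finset R, ∃ q : Isom R, ∀ f ∈ F, q.st * f * q.val = 0 ∨ q.st * f * q.val = 1

/-- (FP) `R` is a finitely presented algebra over `ZMod 2` -/
def FinPres (R : Type u) [Ring R] [Algebra (ZMod 2) R] : Prop :=
  ∃ (n : ℕ) (f : FreeAlgebra (ZMod 2) (Fin n) →ₐ[ZMod 2] R)
    (rel : Finset (FreeAlgebra (ZMod 2) (Fin n))), Function.Surjective f ∧
    (∀ ρ ∈ rel, f ρ = 0) ∧
    ∀ y, f y = 0 → y ∈ AddSubgroup.closure {z | ∃ a b, ∃ ρ ∈ rel, z = a * ρ * b}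

/-- all hypotheses of part II -/
structure RHyp (R : Type u) [Ring R] [Algebra (ZMod 2) R] : Prop where
  nontriv : Nontrivial R
  leavitt : HLeavitt R
  rep : HRep R
  pure : HPure R
  scal : HScal R
  fp : FinPres R

end Hyp

/-! ### Characteristic two -/

section CharTwo

theorem charP_two_of_algebra (R : Type u) [Ring R] [Algebra (ZMod 2) R] [Nontrivial R] :
    CharP R 2 :=
  charP_of_injective_algebraMap (algebraMap (ZMod 2) R).injective 2

variable {R : Type u} [Ring R]

theorem tv_aux [CharP R 2] (a : R) (h : a * a = 0) : (1 + a) * (1 + a) = 1 := by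
  rw [mul_add, add_mul, add_mul, h, one_mul, mul_one, one_mul, add_zero, add_assoc,
    CharTwo.add_self_eq_zero, add_zero]

/-- the unit `1 + a` for `a² = 0` (characteristic 2; it is its own inverse) -/
def tv [CharP R 2] (a : R) (h : a * a = 0) : Rˣ := ⟨1 + a, 1 + a, tv_aux a h, tv_aux a h⟩

variable [CharP R 2]

@[simp] lemma tv_val (a : R) (h : a * a = 0) : (tv a h : R) = 1 + a := rfl
@[simp] lemma tv_inv_val (a : R) (h : a * a = 0) : (((tv a h)⁻¹ : Rˣ) : R) = 1 + a := rfl
lemma tv_inv (a : R) (h : a * a = 0) : (tv a h)⁻¹ = tv a h := Units.ext rfl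

end CharTwo

/-! ### Steinberg groups -/

section Steinberg

/-- Steinberg data in a group `G` -/
structure StData (ι : Type v) (R : Type u) (G : Type w) [Ring R] [Group G] where
  x : ι → ι → R → G
  diag : ∀ i r, x i i r = 1
  add : ∀ i j r s, x i j r * x i j s = x i j (r + s)
  comm3 : ∀ i j k r s, i ≠ j → j ≠ k → i ≠ k → ⁅x i j r, x j k s⁆ = x i k (r * s)
  comm1 : ∀ i j k l r s, i ≠ j → k ≠ l → j ≠ k → i ≠ l → Commute (x i j r) (x k l s)

/-- relators of the Steinberg group -/
inductive StRel (ι : Type v) (R : Type u) [Ring R] : FreeGroup (ι × ι × R) → Prop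
  | diag (i : ι) (r : R) : StRel ι R (FreeGroup.of (i, i, r))
  | add (i j : ι) (r s : R) : StRel ι R
      (FreeGroup.of (i, j, r) * FreeGroup.of (i, j, s) * (FreeGroup.of (i, j, r + s))⁻¹)
  | comm3 (i j k : ι) (r s : R) (h1 : i ≠ j) (h2 : j ≠ k) (h3 : i ≠ k) : StRel ι R
      (⁅FreeGroup.of (i, j, r), FreeGroup.of (j, k, s)⁆ * (FreeGroup.of (i, k, r * s))⁻¹)
  | comm1 (i j k l : ι) (r s : R) (h1 : i ≠ j) (h2 : k ≠ l) (h3 : j ≠ k) (h4 : i ≠ l) : StRel ι R
      ⁅FreeGroup.of (i, j, r), FreeGroup.of (k, l, s)⁆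

/-- relators of the Steinberg group, as a set -/
def stRels (ι : Type v) (R : Type u) [Ring R] : Set (FreeGroup (ι × ι × R)) :=
  {w | StRel ι R w}

/-- the Steinberg group (index type `ι`) -/
def St (ι : Type v) (R : Type u) [Ring R] : Type (max v u) := PresentedGroup (stRels ι R)

instance (ι : Type v) (R : Type u) [Ring R] : Group (St ι R) :=
  inferInstanceAs (Group (PresentedGroup (stRels ι R)))

variable {ι : Type v} {R : Type u} [Ring R] {G : Type w} [Group G]

/-- the generators `x_ij(r)` (`= 1` for `i = j`) -/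
def St.x (i j : ι) (r : R) : St ι R := PresentedGroup.of (i, j, r)

private lemma stRel_eq_one {a : FreeGroup (ι × ι × R)} (h : a ∈ stRels ι R) :
    (PresentedGroup.mk (stRels ι R) a) = 1 :=
  PresentedGroup.one_of_mem h

theorem St.diag (i : ι) (r : R) : St.x i i r = 1 :=
  stRel_eq_one (StRel.diag i r)

theorem St.add (i j : ι) (r s : R) : St.x i j r * St.x i j s = St.x i j (r + s) := by
  have h := stRel_eq_one (StRel.add i j r s)
  rw [map_mul, map_mul, map_inv, mul_inv_eq_one] at h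
  exact h

theorem St.comm3 (i j k : ι) (r s : R) (h1 : i ≠ j) (h2 : j ≠ k) (h3 : i ≠ k) :
    ⁅St.x i j r, St.x j k s⁆ = St.x i k (r * s) := by
  have h := stRel_eq_one (StRel.comm3 i j k r s h1 h2 h3)
  rw [map_mul, map_inv, mul_inv_eq_one, map_commutatorElement] at h
  exact h

theorem St.comm1 (i j k l : ι) (r s : R) (h1 : i ≠ j) (h2 : k ≠ l) (h3 : j ≠ k) (h4 : i ≠ l) :
    Commute (St.x i j r) (St.x k l s) := by
  have h := stRel_eq_one (StRel.comm1 i j k l r s h1 h2 h3 h4)
  rw [map_commutatorElement] at h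
  exact commutatorElement_eq_one_iff_commute.1 h

/-- the Steinberg data in the Steinberg group -/
def St.data (ι : Type v) (R : Type u) [Ring R] : StData ι R (St ι R) :=
  ⟨St.x, St.diag, St.add, St.comm3, St.comm1⟩

/-- universal property -/
def St.lift (D : StData ι R G) : St ι R →* G :=
  PresentedGroup.toGroup (f := fun p : ι × ι × R => D.x p.1 p.2.1 p.2.2) (by
    rintro a (⟨i, r⟩ | ⟨i, j, r, s⟩ | ⟨i, j, k, r, s, h1, h2, h3⟩ |
      ⟨i, j, k, l, r, s, h1, h2, h3, h4⟩)
    · simp [D.diag]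
    · simp [D.add]
    · simp [map_commutatorElement, D.comm3 i j k r s h1 h2 h3]
    · simpa [map_commutatorElement] using (D.comm1 i j k l r s h1 h2 h3 h4).commutator_eq)

@[simp] theorem St.lift_x (D : StData ι R G) (i j : ι) (r : R) :
    St.lift D (St.x i j r) = D.x i j r :=
  PresentedGroup.toGroup.of _

theorem St.hom_ext {f g : St ι R →* G} (h : ∀ i j r, f (St.x i j r) = g (St.x i j r)) : f = g :=
  PresentedGroup.ext fun ⟨i, j, r⟩ => h i j r

theorem St.closure_eq_top (ι : Type v) (R : Type u) [Ring R] :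
    Subgroup.closure {g : St ι R | ∃ i j r, g = St.x i j r} = ⊤ := by
  have h := PresentedGroup.closure_range_of (stRels ι R)
  rw [eq_top_iff]
  refine (le_of_eq h.symm).trans (Subgroup.closure_mono ?_)
  rintro _ ⟨⟨i, j, r⟩, rfl⟩
  exact ⟨i, j, r, rfl⟩

end Steinberg

end P193
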