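import Vale.Agent.Lib.P193.Asm
import Vale.Agent.Lib.P193.One.Emb
import Vale.Agent.Lib.P193.One.Sep.Final

/-!
# P193: the Boone-Higman conjecture, assembly
-/

namespace P193.Asm

universe u

/-- part I -/
theorem partI {G : Type} [Group G] (𝔇 : One.Data) (S : One.Spec 𝔇 G) :
    L.CHyp 𝔇.A ∧ ∃ f : G →* 𝔇.Aˣ, Function.Injective f :=
  ⟨⟨S.nontrivial_A, S.hPure, S.hScal, One.finPres_A 𝔇⟩, S.emb, S.emb_injective⟩

/-- The Boone-Higman conjecture. -/
theorem boone_higman {G : Type u} [Group G] {n : ℕ} (x : Fin n → G)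
    (hx : Subgroup.closure (Set.range x) = ⊤)
    (hwp : ComputablePred fun w : List (Fin n × Bool) => ev x w = 1) :
    ∃ (H : Type) (_ : Group H), Group.IsFinitelyPresented H ∧ IsSimpleGroup H ∧
      ∃ f : G →* H, Function.Injective f := by
  obtain ⟨G₀, hG₀, e, he⟩ := exists_copy x hx
  have hwp₀ : ComputablePred fun w : List (Fin n × Bool) => ev (fun i => e (x i)) w = 1 := by
    have h1 : (fun w : List (Fin n × Bool) => ev (fun i => e (x i)) w = 1)
        = fun w => ev x w = 1 := by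
      funext w
      rw [← map_ev, MulEquiv.map_eq_one_iff]
    rw [h1]
    exact hwp
  obtain ⟨𝔇, ⟨S⟩⟩ := One.exists_spec (lets fun i => e (x i)) (lets_gen _ he) (lets_wp _ hwp₀)
  obtain ⟨h1, f, hf⟩ := partI 𝔇 S
  exact of_chyp h1 (f.comp e.toMonoidHom) (hf.comp e.injective)

end P193.Asm
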